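import Vale.Agent.P352X.CL.W

namespace Vale.Agent.Results.P352.AConformal

open Vale.Agent.P352 GF H496 H15 H246 BW P352X.L
open P352X hiding UVac Rec CInv
open ND (PCh)
open N86 (WeakLoc)
open UniformSpace (Completion)

/-- **Scale invariant local nets in four dimensions are conformally invariant.**

Let `Q` be a scale invariant theory and `T` a tensor field whose charges on space-like hyperplanes
are the generators `A X` of the Poincaré transformations (`PCh`). The vacuum is unique (`UVac`) and
cyclic for the tensor fields (`TfGen`), and the smeared fields are affiliated to the von Neumann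
algebras `N O` of a local net (`LNm`). Nothing is assumed about conformal transformations, a virial
current or time ordered products. `Rec` is field reconstruction: every weakly local covariant
multiplet is generated from the vacuum by local fields of the theory.

1. Let `T` have scaling dimension four. The trace of `T`, applied to the vacuum, is `3 □ l` for a
covariant distribution `l` of dimension two whose gradient is weakly local. Under `Rec` there is a
virial current `J` such that `Q`, all theories obtained from `Q` by adding local fields, and all
theories `Q'` with fermions (`Gr`) that have `Q` as a bosonic sector (`Sect`) are conformally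
invariant (`CInv`).

2. Let `T` have any behaviour under dilations (`Stress0`) without logarithms in dimension four
(`NoLog`), and let every field have a finite scaling law, Jordan blocks being allowed (`FSL`). Under
`Rec` the same holds with a stress tensor `S` of dimension four in place of `T`. -/
theorem result {D D' : Type*} [NormedAddCommGroup D] [InnerProductSpace ℂ D]
    [NormedAddCommGroup D'] [InnerProductSpace ℂ D'] (Q : Theory D) (T : Ix → Ix → Fld D)
    (A : (V → V) → D → D) (hA : PCh Q T A) (hG : TfGen Q)
    (N : Set V → VonNeumannAlgebra (Completion D)) (hN : LNm Q A N) (hU : UVac Q) :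
    (Q.IsStress T → (∃ l, IsPot Q T l ∧ ∀ ν, WeakLoc Q fun f => l (pd ν f)) ∧
      (Rec Q → ∃ J, (∀ Q' : Theory D, IsEnl Q Q' → CInv Q' id T J) ∧
        ∀ (Q' : Theory D') i G T', Sect Q Q' i → Gr Q' G → Q'.IsStress T' →
          (∀ m n, Xt i (T m n) (T' m n)) → ∃ J', (∀ m, Xt i (J m) (J' m)) ∧ CInv Q' G T' J')) ∧
    (Stress0 Q T → FSL Q → NoLog Q T → Rec Q → ∃ S J, Q.IsStress S ∧ IsImpr Q T (improveJ S J) ∧
      CInv Q id S J ∧ ∀ (Q' : Theory D') i G T', Sect Q Q' i → Gr Q' G → Stress0 Q' T' →
        FSL Q' → (∀ m n, Xt i (T m n) (T' m n)) → ∃ S' J', Q'.IsStress S' ∧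
          (∀ m n, Xt i (S m n) (S' m n)) ∧ (∀ m, Xt i (J m) (J' m)) ∧ CInv Q' G S' J') :=
  CA.G.LG.final8 Q A T hA hG N hN hU

end Vale.Agent.Results.P352.AConformal
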