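import Vale.Agent.P352X.EH.W

namespace Vale.Agent.Results.P352.AEnergyBound

open Vale.Agent.P352.GF Vale.Agent.P352.H246 Vale.Agent.P352.H496 Vale.Agent.P352.H15
open Vale.Agent.P352.H755 Vale.Agent.P352.BW Vale.Agent.P352X
open Vale.Agent.P352.ND (PCh)
open UniformSpace (Completion)

/-- **Scale invariant theories with bosons and fermions, a local net and polynomial energy bounds
are conformally invariant.**

Let `T` be a symmetric conserved stress tensor of the scale invariant theory `Q` (`Stress0`); its
charges on space-like hyperplanes are the generators `A X` of the Poincaré transformations (`PCh`).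
Every field is a finite sum of components of multiplets with spin (`MfAll`) and has a finite scaling
law, in which logarithms are allowed (`FSL`, `Scl`); the part of dimension four of `T` has no
logarithms (`NoLog`). The theory is graded by `G = (-1)^F`; the smeared fields are
affiliated to the von Neumann algebras `N O` of a graded local net (`LNg`) and satisfy polynomial
energy bounds (`EBd`); the vacuum is unique (`UVac`). Nothing is assumed about conformal
transformations, a virial current, time ordered products, the reconstruction of fields, a bosonic
sector, spin and statistics, or the spectrum of scaling dimensions.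

Then `Q` has a stress tensor `T'` of dimension four with the charges of `T`, and `Q` extends, in the
same Hilbert space, to a graded theory `Q'` (`ExtG`), whose fields are affiliated to the algebras of
the wedges of the given net (`AfW`), with a hermitian scalar Bose field `L` of dimension two such
that the trace of `T'` is `3 □ L`. The tensor `t = T' + (∂∂ - η □) L` is a
traceless improvement of `T'` whose charges act on all fields by the infinitesimal conformal
transformations (`ConfAct`), satisfy the conformal Ward identities and generate the similitudes
(`CFS`), for `Q'` and for all graded theories obtained from `Q'` by adding local fields. Every field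
of `Q'` is a finite linear combination of derivatives of conformal primaries (`DescS`). -/
theorem result {D : Type*} [NormedAddCommGroup D] [InnerProductSpace ℂ D] (Q : Theory D)
    (G : D → D) (T : Ix → Ix → Fld D) (hT : Stress0 Q T) (A : (V → V) → D → D) (hA : PCh Q T A)
    (hG : MfAll Q) (hF : FSL Q) (hL : NoLog Q T) (Γ : Completion D →L[ℂ] Completion D)
    (N : Set V → VonNeumannAlgebra (Completion D)) (hN : LNg Q G A Γ N) (hU : L.UVac Q)
    (hE : EBd Q) : ∃ T', Q.IsStress T' ∧ PCh Q T' A ∧
    ∃ (D' : Submodule ℂ (Completion D)) (Q' : Theory D') (G' : D' → D') (e : Fld D → Fld D')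
      (L : Fld D'), ExtG Q Γ Q' G' e ∧ AfW N Q' (↑) ∧ Q'.IsStress (fun m n => e (T' m n)) ∧
      Q'.IsScalar L 2 ∧
      (∀ f v, IsTest f → tr (fun m n => e (T' m n)) f v = (3 : ℂ) • L (box f) v) ∧
      ∀ Q'' : Theory D', IsEnl Q' Q'' → IsImpr Q'' (fun m n => e (T' m n))
        (improve (fun m n => e (T' m n)) L) ∧ ConfAct Q'' (improve (fun m n => e (T' m n)) L) ∧
        (Gr Q'' G' → CFS Q'' G' (improve (fun m n => e (T' m n)) L) ∧
        ∀ B, Q'.fld B → ∃ (n : ℕ) (p : Fin n → Bool) (C : Fin n → Fld D'),
          (∀ i, DescS Q'' G' (improve (fun m n => e (T' m n)) L) (p i) (C i)) ∧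
          ∀ f v, IsTest f → B f v = ∑ i, C i f v) :=
  EG.H.final Q G T hT A hA hG hF hL Γ N hN hU hE

end Vale.Agent.Results.P352.AEnergyBound
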