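import Vale.Agent.P352X.Main

namespace Vale.Agent.Results.P352.LocalTrace

open Vale.Agent.P352.GF Vale.Agent.P352.H246 Vale.Agent.P352.H496 Vale.Agent.P352.H15
open Vale.Agent.P352.H755 Vale.Agent.P352.BW Vale.Agent.P352X
open Vale.Agent.P352.ND (PCh)
open Vale.Agent.P352.N86 (WeakLoc)
open UniformSpace (Completion)

/-- **Scale invariant local nets with time ordered products of the stress tensor are conformally
invariant.**

Let `T` be the stress tensor of the scale invariant theory `Q`; its charges on space-like
hyperplanes are the generators `A X` of the Poincaré transformations (`PCh`). The vacuum is unique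
(`UVac`) and cyclic for the tensor fields (`TfGen`), and the smeared fields are affiliated to the
von Neumann algebras `N O` of a local net (`LNm`). Let the time ordered products of two and three
components of `T` exist (`TO`; no Ward identity is assumed for them). Nothing is assumed about
conformal transformations, about a virial current, or about the domain of the fields.

1. The local trace identity holds weakly: the trace of `T`, applied to the vacuum, is `3 □ l` for a
covariant distribution `l` of dimension two whose gradient is weakly local relative to all fields.

2. If every weakly local covariant multiplet is generated from the vacuum by local fields of the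
theory (`Rec`), then there is a virial current `J` such that `t = T + (∂J - η ∂·J) / 3` is a
traceless improvement of `T` whose charges act on all fields by the infinitesimal conformal
transformations, for `Q` and for all theories obtained from `Q` by adding local fields. -/
theorem result {D : Type*} [NormedAddCommGroup D] [InnerProductSpace ℂ D] (Q : Theory D)
    (T : Ix → Ix → Fld D) (hT : Q.IsStress T) (A : (V → V) → D → D) (hA : PCh Q T A)
    (hG : TfGen Q) (N : Set V → VonNeumannAlgebra (Completion D)) (hN : LNm Q A N) (hU : UVac Q)
    (wp wm : I2 → I2 → S2 → Completion D) (t : I2 → I2 → I2 → S3 → ℂ) (hP : TO Q T wp wm t) :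
    (∃ l, IsPot Q T l ∧ ∀ ν, WeakLoc Q fun f => l (pd ν f)) ∧
    (Rec Q → ∃ J, IsVirial Q T J ∧ ∀ Q' : Theory D, IsEnl Q Q' →
      IsImpr Q' T (improveJ T J) ∧ ConfAct Q' (improveJ T J)) :=
  final (fun c => (main c).2) Q T hT A hA hG N hN hU wp wm t hP

end Vale.Agent.Results.P352.LocalTrace
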